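import Mathlib

/-!
An influence bound for the Courtade-Kumar mutual information:
`I(f(X); Y) ≤ H(f(X)) - h₂(ε) · Inf_i(f)`.
-/

namespace Vale.Agent.Lib.P322

open Finset

/-- The transition probability of `n` independent binary symmetric channels with crossover
probability `ε`: the probability of receiving `y` when `x` is sent. -/
def chan (n : ℕ) (ε : ℝ) (x y : Fin n → Bool) : ℝ := ∏ i, (if x i = y i then 1 - ε else ε)

/-- The joint probability mass function of `(f(X), Y)`: `X` uniform on the cube, `Y` the output of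
the channel on input `X`. -/
noncomputable def joint (n : ℕ) (ε : ℝ) (f : (Fin n → Bool) → Bool) (b : Bool)
    (y : Fin n → Bool) : ℝ :=
  ∑ x : Fin n → Bool, (if f x = b then (1 / 2 : ℝ) ^ n * chan n ε x y else 0)

/-- The mutual information `I(f(X); Y)` in bits. -/
noncomputable def mutualInfo (n : ℕ) (ε : ℝ) (f : (Fin n → Bool) → Bool) : ℝ :=
  ∑ b : Bool, ∑ y : Fin n → Bool, joint n ε f b y *
    Real.logb 2 (joint n ε f b y / ((∑ y', joint n ε f b y') * (∑ b', joint n ε f b' y)))

/-- The binary entropy function in bits. -/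
noncomputable def h2 (p : ℝ) : ℝ := -(p * Real.logb 2 p) - (1 - p) * Real.logb 2 (1 - p)

/-- Flip the `i`-th bit of `x`. -/
def flipBit {n : ℕ} (i : Fin n) (x : Fin n → Bool) : Fin n → Bool := Function.update x i (!x i)

/-- The influence of coordinate `i` on `f`: the fraction of inputs at which flipping bit `i`
changes the value of `f`. -/
noncomputable def infl (n : ℕ) (f : (Fin n → Bool) → Bool) (i : Fin n) : ℝ :=
  ((Finset.univ.filter (fun x : Fin n → Bool => f (flipBit i x) ≠ f x)).card : ℝ) / 2 ^ n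

/-- The probability that `f(X) = true` for `X` uniform on the cube. -/
noncomputable def pTrue (n : ℕ) (f : (Fin n → Bool) → Bool) : ℝ :=
  ((Finset.univ.filter (fun x : Fin n → Bool => f x = true)).card : ℝ) / 2 ^ n

/-! ### The binary entropy -/

theorem h2_eq (p : ℝ) : h2 p = Real.binEntropy p / Real.log 2 := by
  unfold h2
  rw [Real.binEntropy_eq_negMulLog_add_negMulLog_one_sub]
  unfold Real.negMulLog Real.logb
  have h : Real.log 2 ≠ 0 := by positivity
  field_simp
  ring

theorem h2_zero : h2 0 = 0 := by simp [h2]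

theorem h2_one : h2 1 = 0 := by simp [h2]

theorem h2_one_sub (p : ℝ) : h2 (1 - p) = h2 p := by
  unfold h2
  ring_nf

theorem h2_le_one (p : ℝ) : h2 p ≤ 1 := by
  rw [h2_eq]
  have h : 0 < Real.log 2 := by positivity
  rw [div_le_one h]
  exact Real.binEntropy_le_log_two

theorem h2_nonneg (p : ℝ) (h0 : 0 ≤ p) (h1 : p ≤ 1) : 0 ≤ h2 p := by
  rw [h2_eq]
  have h : 0 < Real.log 2 := by positivity
  exact div_nonneg (Real.binEntropy_nonneg h0 h1) h.le

theorem h2_concave : ConcaveOn ℝ (Set.Icc (0 : ℝ) 1) h2 := by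
  have h : (0 : ℝ) ≤ (Real.log 2)⁻¹ := by positivity
  have hc := Real.strictConcave_binEntropy.concaveOn.smul h
  refine hc.congr ?_
  intro p _
  simp only [smul_eq_mul]
  rw [h2_eq]
  ring

/-! ### The channel -/

theorem chan_nonneg (n : ℕ) (ε : ℝ) (h0 : 0 ≤ ε) (h1 : ε ≤ 1) (x y : Fin n → Bool) :
    0 ≤ chan n ε x y := by
  unfold chan
  apply Finset.prod_nonneg
  intro i _
  split_ifs <;> linarith

theorem sum_chan (n : ℕ) (ε : ℝ) (y : Fin n → Bool) : ∑ x : Fin n → Bool, chan n ε x y = 1 := by
  unfold chan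
  rw [← Fintype.prod_sum (fun i (a : Bool) => if a = y i then 1 - ε else ε)]
  apply Finset.prod_eq_one
  intro i _
  rw [Fintype.sum_bool]
  cases y i <;> simp

theorem chan_comm (n : ℕ) (ε : ℝ) (x y : Fin n → Bool) : chan n ε x y = chan n ε y x := by
  unfold chan
  apply Finset.prod_congr rfl
  intro i _
  simp only [eq_comm]

theorem sum_chan' (n : ℕ) (ε : ℝ) (x : Fin n → Bool) : ∑ y : Fin n → Bool, chan n ε x y = 1 := by
  rw [← sum_chan n ε x]
  apply Finset.sum_congr rfl
  intro y _
  exact chan_comm n ε x y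

theorem flipBit_same {n : ℕ} (i : Fin n) (x : Fin n → Bool) : flipBit i x i = !x i := by
  simp [flipBit]

theorem flipBit_ne {n : ℕ} (i : Fin n) (x : Fin n → Bool) (j : Fin n) (h : j ≠ i) :
    flipBit i x j = x j := by
  simp [flipBit, h]

theorem flipBit_flipBit {n : ℕ} (i : Fin n) (x : Fin n → Bool) : flipBit i (flipBit i x) = x := by
  funext j
  by_cases h : j = i
  · subst h
    rw [flipBit_same, flipBit_same]
    simp
  · rw [flipBit_ne i _ j h, flipBit_ne i _ j h]

/-- Flipping bit `i`, as a permutation of the cube. -/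
def flipEquiv {n : ℕ} (i : Fin n) : (Fin n → Bool) ≃ (Fin n → Bool) :=
  ⟨flipBit i, flipBit i, flipBit_flipBit i, flipBit_flipBit i⟩

theorem sum_flip {n : ℕ} (i : Fin n) (g : (Fin n → Bool) → ℝ) :
    ∑ x, g (flipBit i x) = ∑ x, g x :=
  Equiv.sum_comp (flipEquiv i) g

/-- The channel factor of the coordinates other than `i`. -/
def rest (n : ℕ) (ε : ℝ) (i : Fin n) (x y : Fin n → Bool) : ℝ :=
  ∏ j ∈ (Finset.univ.erase i), (if x j = y j then 1 - ε else ε)

theorem rest_nonneg (n : ℕ) (ε : ℝ) (h0 : 0 ≤ ε) (h1 : ε ≤ 1) (i : Fin n) (x y : Fin n → Bool) :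
    0 ≤ rest n ε i x y := by
  unfold rest
  apply Finset.prod_nonneg
  intro j _
  split_ifs <;> linarith

theorem chan_split (n : ℕ) (ε : ℝ) (i : Fin n) (x y : Fin n → Bool) :
    chan n ε x y = (if x i = y i then 1 - ε else ε) * rest n ε i x y := by
  unfold chan rest
  exact (Finset.mul_prod_erase Finset.univ (fun j => if x j = y j then 1 - ε else ε)
    (Finset.mem_univ i)).symm

theorem rest_flip (n : ℕ) (ε : ℝ) (i : Fin n) (x y : Fin n → Bool) :
    rest n ε i (flipBit i x) y = rest n ε i x y := by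
  unfold rest
  apply Finset.prod_congr rfl
  intro j hj
  rw [flipBit_ne i x j (Finset.ne_of_mem_erase hj)]

theorem chan_pair (n : ℕ) (ε : ℝ) (i : Fin n) (x y : Fin n → Bool) :
    (chan n ε x y = (1 - ε) * rest n ε i x y ∧ chan n ε (flipBit i x) y = ε * rest n ε i x y) ∨
    (chan n ε x y = ε * rest n ε i x y ∧ chan n ε (flipBit i x) y = (1 - ε) * rest n ε i x y) := by
  rw [chan_split n ε i x y, chan_split n ε i (flipBit i x) y, rest_flip, flipBit_same]
  by_cases h : x i = y i
  · left
    have h' : ¬ ((!x i) = y i) := by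
      rw [h]; cases y i <;> simp
    rw [if_pos h, if_neg h']
    exact ⟨rfl, rfl⟩
  · right
    have h' : (!x i) = y i := by
      revert h; cases x i <;> cases y i <;> simp
    rw [if_neg h, if_pos h']
    exact ⟨rfl, rfl⟩

theorem chan_add_flip (n : ℕ) (ε : ℝ) (i : Fin n) (x y : Fin n → Bool) :
    chan n ε x y + chan n ε (flipBit i x) y = rest n ε i x y := by
  rcases chan_pair n ε i x y with ⟨h1, h2⟩ | ⟨h1, h2⟩ <;> rw [h1, h2] <;> ring

theorem pair_bound (ε R u : ℝ) (hR : 0 ≤ R) (hu : u = ε ∨ u = 1 - ε) :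
    h2 ε * (R / 2) ≤ (R / 2) * h2 ((u * R / 2) / (R / 2)) := by
  rcases eq_or_lt_of_le hR with h | h
  · rw [← h]; simp
  · have hne : R ≠ 0 := ne_of_gt h
    have e : (u * R / 2) / (R / 2) = u := by field_simp
    rw [e]
    rcases hu with rfl | rfl
    · exact le_of_eq (mul_comm _ _)
    · rw [h2_one_sub]; exact le_of_eq (mul_comm _ _)

/-- Jensen's inequality for the binary entropy, applied to the pairing of the cube by flipping
bit `i`. -/
theorem jensen_y (n : ℕ) (ε : ℝ) (h0 : 0 ≤ ε) (h1 : ε ≤ 1) (f : (Fin n → Bool) → Bool)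
    (i : Fin n) (y : Fin n → Bool) :
    h2 ε * ∑ x : Fin n → Bool,
        (if f (flipBit i x) ≠ f x then (chan n ε x y + chan n ε (flipBit i x) y) / 2 else 0)
      ≤ h2 (∑ x : Fin n → Bool, (if f x = true then chan n ε x y else 0)) := by
  set c : (Fin n → Bool) → ℝ := fun x => chan n ε x y with hc
  set A : (Fin n → Bool) → ℝ := fun x => if f x = true then c x else 0 with hA
  set a : (Fin n → Bool) → ℝ := fun x => (A x + A (flipBit i x)) / 2 with ha
  set W : (Fin n → Bool) → ℝ := fun x => (c x + c (flipBit i x)) / 2 with hW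
  set θ : (Fin n → Bool) → ℝ := fun x => a x / W x with hθ
  have hc0 : ∀ x, 0 ≤ c x := fun x => chan_nonneg n ε h0 h1 x y
  have hA0 : ∀ x, 0 ≤ A x := by
    intro x
    simp only [hA]
    split_ifs
    · exact hc0 x
    · exact le_refl 0
  have hAc : ∀ x, A x ≤ c x := by
    intro x
    simp only [hA]
    split_ifs
    · exact le_refl _
    · exact hc0 x
  have hW0 : ∀ x, 0 ≤ W x := by
    intro x
    simp only [hW]
    linarith [hc0 x, hc0 (flipBit i x)]
  have ha0 : ∀ x, 0 ≤ a x := by
    intro x
    simp only [ha]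
    linarith [hA0 x, hA0 (flipBit i x)]
  have haW : ∀ x, a x ≤ W x := by
    intro x
    simp only [ha, hW]
    linarith [hAc x, hAc (flipBit i x)]
  have hsumc : ∑ x, c x = 1 := sum_chan n ε y
  have hW1 : ∑ x, W x = 1 := by
    simp only [hW]
    rw [← Finset.sum_div, Finset.sum_add_distrib, sum_flip i c, hsumc]
    norm_num
  have hθmem : ∀ x, θ x ∈ Set.Icc (0 : ℝ) 1 := by
    intro x
    simp only [hθ]
    exact ⟨div_nonneg (ha0 x) (hW0 x), div_le_one_of_le₀ (haW x) (hW0 x)⟩
  have hWθ : ∀ x, W x * θ x = a x := by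
    intro x
    simp only [hθ]
    by_cases hz : W x = 0
    · have : a x = 0 := le_antisymm (hz ▸ haW x) (ha0 x)
      rw [hz, this]; simp
    · field_simp
  have hJ := h2_concave.le_map_sum (t := Finset.univ) (w := W) (p := θ)
    (fun x _ => hW0 x) hW1 (fun x _ => hθmem x)
  simp only [smul_eq_mul] at hJ
  have hsum : ∑ x, W x * θ x = ∑ x, A x := by
    rw [Finset.sum_congr rfl (fun x _ => hWθ x)]
    simp only [ha]
    rw [← Finset.sum_div, Finset.sum_add_distrib, sum_flip i A]
    ring
  rw [hsum] at hJ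
  refine le_trans ?_ hJ
  rw [Finset.mul_sum]
  apply Finset.sum_le_sum
  intro x _
  by_cases hf : f (flipBit i x) = f x
  · rw [if_neg (not_not.mpr hf), mul_zero]
    exact mul_nonneg (hW0 x) (h2_nonneg _ (hθmem x).1 (hθmem x).2)
  · rw [if_pos hf]
    have hR := rest_nonneg n ε h0 h1 i x y
    have hWR : W x = rest n ε i x y / 2 := by
      simp only [hW, hc]
      rw [chan_add_flip]
    have hcx : c x = chan n ε x y := rfl
    have hcf : c (flipBit i x) = chan n ε (flipBit i x) y := rfl
    have key : ∃ u, (u = ε ∨ u = 1 - ε) ∧ a x = u * rest n ε i x y / 2 := by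
      by_cases hfx : f x = true
      · have hfx' : ¬ (f (flipBit i x) = true) := by
          intro h; exact hf (h.trans hfx.symm)
        have : a x = c x / 2 := by
          simp only [ha, hA]
          rw [if_pos hfx, if_neg hfx', add_zero]
        rcases chan_pair n ε i x y with ⟨e1, _⟩ | ⟨e1, _⟩
        · exact ⟨1 - ε, Or.inr rfl, by rw [this, hcx, e1]⟩
        · exact ⟨ε, Or.inl rfl, by rw [this, hcx, e1]⟩
      · have hfx' : f (flipBit i x) = true := by
          revert hf hfx
          cases f x <;> cases f (flipBit i x) <;> simp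
        have : a x = c (flipBit i x) / 2 := by
          simp only [ha, hA]
          rw [if_neg hfx, if_pos hfx', zero_add]
        rcases chan_pair n ε i x y with ⟨_, e2⟩ | ⟨_, e2⟩
        · exact ⟨ε, Or.inl rfl, by rw [this, hcf, e2]⟩
        · exact ⟨1 - ε, Or.inr rfl, by rw [this, hcf, e2]⟩
    obtain ⟨u, hu, hau⟩ := key
    have hθx : θ x = (u * rest n ε i x y / 2) / (rest n ε i x y / 2) := by
      simp only [hθ]
      rw [hau, hWR]
    have hWR' : (chan n ε x y + chan n ε (flipBit i x) y) / 2 = rest n ε i x y / 2 := by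
      rw [chan_add_flip]
    rw [hθx, hWR, hWR']
    exact pair_bound ε (rest n ε i x y) u hR hu

/-! ### The mutual information as an entropy difference -/

/-- The posterior probability `P(f(X) = b | Y = y)`. -/
noncomputable def post (n : ℕ) (ε : ℝ) (f : (Fin n → Bool) → Bool) (b : Bool)
    (y : Fin n → Bool) : ℝ :=
  ∑ x : Fin n → Bool, (if f x = b then chan n ε x y else 0)

/-- The number of inputs with `f x = b`. -/
noncomputable def cnt (n : ℕ) (f : (Fin n → Bool) → Bool) (b : Bool) : ℝ :=
  ((Finset.univ.filter (fun x : Fin n → Bool => f x = b)).card : ℝ)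

theorem joint_eq (n : ℕ) (ε : ℝ) (f : (Fin n → Bool) → Bool) (b : Bool) (y : Fin n → Bool) :
    joint n ε f b y = (1 / 2 : ℝ) ^ n * post n ε f b y := by
  unfold joint post
  rw [Finset.mul_sum]
  apply Finset.sum_congr rfl
  intro x _
  split_ifs <;> simp

theorem post_add (n : ℕ) (ε : ℝ) (f : (Fin n → Bool) → Bool) (y : Fin n → Bool) :
    post n ε f true y + post n ε f false y = 1 := by
  unfold post
  rw [← Finset.sum_add_distrib, ← sum_chan n ε y]
  apply Finset.sum_congr rfl
  intro x _
  cases f x <;> simp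

theorem sum_post (n : ℕ) (ε : ℝ) (f : (Fin n → Bool) → Bool) (b : Bool) :
    ∑ y, post n ε f b y = cnt n f b := by
  unfold post cnt
  rw [Finset.sum_comm]
  have h : ∀ x : Fin n → Bool, ∑ y, (if f x = b then chan n ε x y else 0)
      = if f x = b then 1 else 0 := by
    intro x
    split_ifs
    · exact sum_chan' n ε x
    · simp
  rw [Finset.sum_congr rfl (fun x _ => h x), Finset.sum_boole]

theorem cnt_add (n : ℕ) (f : (Fin n → Bool) → Bool) : cnt n f true + cnt n f false = 2 ^ n := by
  unfold cnt
  have h := Finset.card_filter_add_card_filter_not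
    (s := (Finset.univ : Finset (Fin n → Bool))) (fun x => f x = true)
  have h2 : (Finset.univ.filter (fun x : Fin n → Bool => ¬ (f x = true)))
      = Finset.univ.filter (fun x => f x = false) := by
    apply Finset.filter_congr
    intro x _
    simp
  rw [h2] at h
  have hc : (Finset.univ : Finset (Fin n → Bool)).card = 2 ^ n := by simp
  rw [hc] at h
  exact_mod_cast h

theorem post_eq_zero_of_cnt (n : ℕ) (ε : ℝ) (f : (Fin n → Bool) → Bool) (b : Bool)
    (y : Fin n → Bool) (h : cnt n f b = 0) : post n ε f b y = 0 := by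
  unfold cnt at h
  have h' : (Finset.univ.filter (fun x : Fin n → Bool => f x = b)).card = 0 := by exact_mod_cast h
  rw [Finset.card_eq_zero, Finset.filter_eq_empty_iff] at h'
  unfold post
  apply Finset.sum_eq_zero
  intro x hx
  rw [if_neg (h' hx)]

theorem mutualInfo_eq (n : ℕ) (ε : ℝ) (f : (Fin n → Bool) → Bool) :
    mutualInfo n ε f = h2 (pTrue n f) - (1 / 2 : ℝ) ^ n * ∑ y, h2 (post n ε f true y) := by
  set w : ℝ := (1 / 2 : ℝ) ^ n with hw
  have hwpos : 0 < w := by positivity
  have hmarg : ∀ y, ∑ b', joint n ε f b' y = w := by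
    intro y
    rw [Fintype.sum_bool, joint_eq, joint_eq, ← mul_add, post_add, mul_one]
  have hmargb : ∀ b, ∑ y', joint n ε f b y' = w * cnt n f b := by
    intro b
    rw [Finset.sum_congr rfl (fun y _ => joint_eq n ε f b y), ← Finset.mul_sum, sum_post]
  have hterm : ∀ b y, joint n ε f b y *
      Real.logb 2 (joint n ε f b y / ((∑ y', joint n ε f b y') * (∑ b', joint n ε f b' y)))
      = w * (post n ε f b y * Real.logb 2 (post n ε f b y)
          - post n ε f b y * Real.logb 2 (w * cnt n f b)) := by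
    intro b y
    rw [hmarg, hmargb, joint_eq]
    by_cases hq : post n ε f b y = 0
    · rw [hq]; simp
    · have hcnt : cnt n f b ≠ 0 := fun h => hq (post_eq_zero_of_cnt n ε f b y h)
      have e : w * post n ε f b y / (w * cnt n f b * w) = post n ε f b y / (w * cnt n f b) := by
        field_simp
      rw [e, Real.logb_div hq (mul_ne_zero hwpos.ne' hcnt)]
      ring
  have hsumb : ∀ b, ∑ y, w * (post n ε f b y * Real.logb 2 (post n ε f b y)
        - post n ε f b y * Real.logb 2 (w * cnt n f b))
      = w * ∑ y, post n ε f b y * Real.logb 2 (post n ε f b y)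
        - (w * cnt n f b) * Real.logb 2 (w * cnt n f b) := by
    intro b
    rw [← Finset.mul_sum, Finset.sum_sub_distrib, ← Finset.sum_mul, sum_post]
    ring
  have hw2 : w * 2 ^ n = 1 := by
    rw [hw, ← mul_pow]
    norm_num
  have hPt : w * cnt n f true = pTrue n f := by
    unfold pTrue cnt
    rw [hw, one_div, inv_pow, div_eq_mul_inv, mul_comm]
  have hPf : w * cnt n f false = 1 - pTrue n f := by
    have h := cnt_add n f
    rw [← hPt]
    have : cnt n f false = 2 ^ n - cnt n f true := by linarith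
    rw [this, mul_sub, hw2]
  have hqf : ∀ y, post n ε f false y = 1 - post n ε f true y :=
    fun y => by linarith [post_add n ε f y]
  have hfs : ∑ y, post n ε f false y * Real.logb 2 (post n ε f false y)
      = ∑ y, (1 - post n ε f true y) * Real.logb 2 (1 - post n ε f true y) :=
    Finset.sum_congr rfl (fun y _ => by rw [hqf y])
  unfold mutualInfo
  rw [Fintype.sum_bool, Finset.sum_congr rfl (fun y _ => hterm true y),
    Finset.sum_congr rfl (fun y _ => hterm false y), hsumb true, hsumb false, hPt, hPf, hfs]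
  unfold h2
  rw [Finset.sum_sub_distrib, Finset.sum_neg_distrib]
  ring

/-- The influence bound. -/
theorem influence_bound (n : ℕ) (ε : ℝ) (h0 : 0 ≤ ε) (h1 : ε ≤ 1) (f : (Fin n → Bool) → Bool)
    (i : Fin n) : mutualInfo n ε f ≤ h2 (pTrue n f) - h2 ε * infl n f i := by
  rw [mutualInfo_eq n ε f]
  have hy : ∀ y, h2 ε * ∑ x : Fin n → Bool,
        (if f (flipBit i x) ≠ f x then (chan n ε x y + chan n ε (flipBit i x) y) / 2 else 0)
      ≤ h2 (post n ε f true y) := fun y => jensen_y n ε h0 h1 f i y
  have hsum : ∑ y, ∑ x : Fin n → Bool,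
        (if f (flipBit i x) ≠ f x then (chan n ε x y + chan n ε (flipBit i x) y) / 2 else 0)
      = ((Finset.univ.filter (fun x : Fin n → Bool => f (flipBit i x) ≠ f x)).card : ℝ) := by
    rw [Finset.sum_comm]
    have h : ∀ x : Fin n → Bool, ∑ y,
        (if f (flipBit i x) ≠ f x then (chan n ε x y + chan n ε (flipBit i x) y) / 2 else 0)
        = if f (flipBit i x) ≠ f x then 1 else 0 := by
      intro x
      split_ifs
      · rw [← Finset.sum_div, Finset.sum_add_distrib, sum_chan', sum_chan']
        norm_num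
      · simp
    rw [Finset.sum_congr rfl (fun x _ => h x), Finset.sum_boole]
  have key : h2 ε * infl n f i ≤ (1 / 2 : ℝ) ^ n * ∑ y, h2 (post n ε f true y) := by
    calc h2 ε * infl n f i
        = (1 / 2 : ℝ) ^ n * ∑ y, h2 ε * ∑ x : Fin n → Bool,
            (if f (flipBit i x) ≠ f x then (chan n ε x y + chan n ε (flipBit i x) y) / 2
              else 0) := by
          rw [← Finset.mul_sum, hsum]
          unfold infl
          rw [one_div, inv_pow]
          ring
      _ ≤ (1 / 2 : ℝ) ^ n * ∑ y, h2 (post n ε f true y) :=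
          mul_le_mul_of_nonneg_left (Finset.sum_le_sum (fun y _ => hy y)) (by positivity)
  linarith

theorem infl_eq_one (n : ℕ) (f : (Fin n → Bool) → Bool) (i : Fin n)
    (h : ∀ x, f (flipBit i x) ≠ f x) : infl n f i = 1 := by
  unfold infl
  rw [Finset.filter_true_of_mem (fun x _ => h x)]
  simp

end Vale.Agent.Lib.P322
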